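import Vale.Agent.P122.C.Val

/-!
# P122 / H425 : column refinement (helper425)

For arbitrary frames `φ i σ` the children of the pieces `σ` are refined so that all columns (with respect to the direction
`ψ` of `B2`) have about `2 ^ u i` elements. This gives the strip count (B2') and the count of children with the same normal
slope digit (C2').
-/

set_option autoImplicit false

namespace Vale.Agent.P122.H425

open Finset Vale.Agent.P122.C2

/-- the column of a cap -/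
noncomputable def colOf (ψ : Fin 2 → ℝ) (τ' : Z2) : ℤ := ⌊ψ 0 * τ' 0 + ψ 1 * τ' 1⌋

/-- the column of `τ'` in `G` -/
noncomputable def colSet (ψ : Fin 2 → ℝ) (G : Finset Z2) (τ' : Z2) : Finset Z2 := G.filter fun t => colOf ψ t = colOf ψ τ'

theorem mem_colSet_self {ψ : Fin 2 → ℝ} {G : Finset Z2} {τ' : Z2} (h : τ' ∈ G) : τ' ∈ colSet ψ G τ' :=
  mem_filter.2 ⟨h, rfl⟩

/-- column label -/
noncomputable def clab (n : ℕ) (ψ : Fin 2 → ℝ) (G : Finset Z2) (τ' : Z2) : Fin (2 * n + 1) :=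
  ⟨min (Nat.log 2 (colSet ψ G τ').card) (2 * n), by omega⟩

section finite

variable {n : ℕ} {ψ : Fin 2 → ℝ} {G G' : Finset Z2} {τ : Z2} {u : Fin (2 * n + 1)}

theorem clab_spec (hG : G ⊆ kids n τ) {τ' : Z2} (h : τ' ∈ G) (hu : clab n ψ G τ' = u) :
    2 ^ (u : ℕ) ≤ (colSet ψ G τ').card ∧ (colSet ψ G τ').card < 2 ^ ((u : ℕ) + 1) := by
  have hne : (colSet ψ G τ').card ≠ 0 := Finset.card_ne_zero_of_mem (mem_colSet_self h)
  have hc : (colSet ψ G τ').card ≤ 2 ^ (2 * n) := by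
    rw [← card_kids n τ]
    exact card_le_card ((filter_subset _ _).trans hG)
  have hl : Nat.log 2 (colSet ψ G τ').card ≤ 2 * n := by
    calc Nat.log 2 (colSet ψ G τ').card ≤ Nat.log 2 (2 ^ (2 * n)) := Nat.log_mono_right hc
      _ = 2 * n := Nat.log_pow (by norm_num) _
  have hv : (u : ℕ) = Nat.log 2 (colSet ψ G τ').card := by
    rw [← hu]
    exact min_eq_left hl
  rw [hv]
  exact ⟨Nat.pow_log_le_self 2 hne, Nat.lt_pow_succ_log_self (by norm_num) _⟩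

/-- columns of `G'` are small -/
theorem col_small (hG : G ⊆ kids n τ) (hG' : G' ⊆ G) (hu : ∀ τ' ∈ G', clab n ψ G τ' = u) (r : ℝ) :
    (G'.filter fun τ' => |ψ 0 * τ' 0 + ψ 1 * τ' 1 - r| ≤ 1).card ≤ 3 * 2 ^ ((u : ℕ) + 1) := by
  classical
  have h1 : ∀ τ' ∈ G'.filter (fun τ' : Z2 => |ψ 0 * τ' 0 + ψ 1 * τ' 1 - r| ≤ 1),
      colOf ψ τ' ∈ Finset.Icc ⌊r - 1⌋ (⌊r - 1⌋ + 2) := by
    intro τ' h
    have h2 := abs_le.1 (mem_filter.1 h).2
    rw [mem_Icc]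
    constructor
    · exact Int.floor_le_floor (by linarith [h2.1])
    · have : colOf ψ τ' ≤ ⌊r - 1 + (2 : ℤ)⌋ := Int.floor_le_floor (by push_cast; linarith [h2.2])
      rw [Int.floor_add_intCast] at this
      exact this
  have h2 := Finset.card_le_mul_card_image_of_maps_to (s := G'.filter (fun τ' : Z2 => |ψ 0 * τ' 0 + ψ 1 * τ' 1 - r| ≤ 1))
    (t := Finset.Icc ⌊r - 1⌋ (⌊r - 1⌋ + 2)) (f := colOf ψ) h1 (2 ^ ((u : ℕ) + 1)) (by
      intro z hz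
      by_cases he : ∃ τ' ∈ G', colOf ψ τ' = z
      · obtain ⟨τ', hτ, rfl⟩ := he
        refine le_trans (card_le_card ?_) (clab_spec hG (hG' hτ) (hu τ' hτ)).2.le
        intro t ht
        rw [mem_filter] at ht
        exact mem_filter.2 ⟨hG' (mem_filter.1 ht.1).1, ht.2⟩
      · push Not at he
        rw [Finset.card_eq_zero.2]
        · positivity
        · refine Finset.filter_eq_empty_iff.2 fun t ht => ?_
          exact he t (mem_filter.1 ht).1)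
  refine h2.trans (le_of_eq ?_)
  rw [Int.card_Icc]
  have : (⌊r - 1⌋ + 2 + 1 - ⌊r - 1⌋).toNat = 3 := by
    have : ⌊r - 1⌋ + 2 + 1 - ⌊r - 1⌋ = 3 := by ring
    rw [this]; rfl
  rw [this]; ring

/-- the number of columns -/
theorem col_few (hG : G ⊆ kids n τ) (hG' : G' ⊆ G) (hu : ∀ τ' ∈ G', clab n ψ G τ' = u) :
    (G'.image (colOf ψ)).card * 2 ^ (u : ℕ) ≤ G.card := by
  classical
  have h1 : ∑ z ∈ G'.image (colOf ψ), (G.filter fun t => colOf ψ t = z).card ≤ G.card := by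
    rw [← Finset.card_biUnion]
    · exact card_le_card (by
        intro t ht
        rw [mem_biUnion] at ht
        obtain ⟨z, _, ht⟩ := ht
        exact (mem_filter.1 ht).1)
    · intro z _ z' _ hne
      rw [Function.onFun, Finset.disjoint_left]
      intro t ht ht'
      exact hne ((mem_filter.1 ht).2.symm.trans (mem_filter.1 ht').2)
  refine le_trans ?_ h1
  rw [← smul_eq_mul]
  refine Finset.card_nsmul_le_sum _ _ _ fun z hz => ?_
  obtain ⟨τ', hτ, rfl⟩ := mem_image.1 hz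
  exact (clab_spec hG (hG' hτ) (hu τ' hτ)).1

/-- the number of caps near a cap -/
theorem near_card (E : Finset Z2) (B : ℕ) (h : ∀ t ∈ E, ∀ t' ∈ E, |(t 0 : ℝ) - t' 0| + |(t 1 : ℝ) - t' 1| ≤ B) :
    E.card ≤ (2 * B + 1) ^ 2 := by
  classical
  rcases E.eq_empty_or_nonempty with rfl | ⟨t0, ht0⟩
  · simp
  have : E ⊆ Fintype.piFinset fun k => Finset.Icc (t0 k - B) (t0 k + B) := by
    intro t ht
    rw [Fintype.mem_piFinset]
    intro k
    have h1 := h t ht t0 ht0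
    have h2 : |(t k : ℝ) - t0 k| ≤ B := by
      have a0 := abs_nonneg ((t 0 : ℝ) - t0 0)
      have a1 := abs_nonneg ((t 1 : ℝ) - t0 1)
      fin_cases k
      · simp only [Fin.zero_eta]; linarith
      · simp only [Fin.mk_one]; linarith
    have h3 := abs_le.1 h2
    rw [mem_Icc]
    constructor
    · have : ((t0 k - B : ℤ) : ℝ) ≤ (t k : ℝ) := by push_cast; linarith [h3.1]
      exact_mod_cast this
    · have : (t k : ℝ) ≤ ((t0 k + B : ℤ) : ℝ) := by push_cast; linarith [h3.2]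
      exact_mod_cast this
  refine (card_le_card this).trans (le_of_eq ?_)
  rw [Fintype.card_piFinset]
  have : ∀ k : Fin 2, (Finset.Icc (t0 k - B) (t0 k + B)).card = 2 * B + 1 := by
    intro k
    rw [Int.card_Icc]
    omega
  simp only [this, Fin.prod_univ_two]
  ring

/-- children with the same normal digit: at most `(2 B + 1) ^ 2` in each column -/
theorem dig_few (hG : G ⊆ kids n τ) (hG' : G' ⊆ G) (hu : ∀ τ' ∈ G', clab n ψ G τ' = u) (B : ℕ) (E : Finset Z2)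
    (hE : E ⊆ G') (h : ∀ t ∈ E, ∀ t' ∈ E, |ψ 0 * ((t 0 : ℝ) - t' 0) + ψ 1 * ((t 1 : ℝ) - t' 1)| ≤ 1 →
      |(t 0 : ℝ) - t' 0| + |(t 1 : ℝ) - t' 1| ≤ B) :
    E.card * 2 ^ (u : ℕ) ≤ (2 * B + 1) ^ 2 * G.card := by
  classical
  have h1 := Finset.card_le_mul_card_image (f := colOf ψ) E ((2 * B + 1) ^ 2) (by
    intro z hz
    refine near_card _ B fun t ht t' ht' => ?_
    rw [mem_filter] at ht ht'
    refine h t ht.1 t' ht'.1 ?_
    have e : colOf ψ t = colOf ψ t' := ht.2.trans ht'.2.symm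
    unfold colOf at e
    have a := Int.abs_sub_lt_one_of_floor_eq_floor e
    have e2 : ψ 0 * ((t 0 : ℝ) - t' 0) + ψ 1 * ((t 1 : ℝ) - t' 1) =
        ψ 0 * t 0 + ψ 1 * t 1 - (ψ 0 * t' 0 + ψ 1 * t' 1) := by ring
    rw [e2]
    exact a.le)
  have h2 := col_few hG hG' hu
  have h3 : (E.image (colOf ψ)).card ≤ (G'.image (colOf ψ)).card := card_le_card (image_subset_image hE)
  calc E.card * 2 ^ (u : ℕ) ≤ (2 * B + 1) ^ 2 * (E.image (colOf ψ)).card * 2 ^ (u : ℕ) := Nat.mul_le_mul_right _ h1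
    _ ≤ (2 * B + 1) ^ 2 * (G'.image (colOf ψ)).card * 2 ^ (u : ℕ) :=
        Nat.mul_le_mul_right _ (Nat.mul_le_mul_left _ h3)
    _ = (2 * B + 1) ^ 2 * ((G'.image (colOf ψ)).card * 2 ^ (u : ℕ)) := by ring
    _ ≤ _ := Nat.mul_le_mul_left _ h2

end finite

section main

variable {C : ℝ} {n K : ℕ}

/-- the direction of the columns of the children of `τ`, for the frame `θ` -/
noncomputable def psi (F : Amp C n K) (i : ℕ) (τ : Z2) (θ : ℝ) : Fin 2 → ℝ :=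
  open Classical in
  if h : 1 ≤ i ∧ i < K ∧ Cap n i τ then (F.B2 i τ θ h.1 h.2.1 h.2.2).choose else 0

theorem psi_near (F : Amp C n K) {i : ℕ} {τ : Z2} (θ : ℝ) (h1 : 1 ≤ i) (h2 : i < K) (h3 : Cap n i τ) :
    ∀ τ' ∈ kids n τ, ∀ τ'' ∈ kids n τ, |(τ' 0 : ℝ) - τ'' 0| + |(τ' 1 : ℝ) - τ'' 1| ≤
      C * (|psi F i τ θ 0 * (τ' 0 - τ'' 0) + psi F i τ θ 1 * (τ' 1 - τ'' 1)| +
        2 ^ ((i + 1) * n) * |fn θ (F.s (i + 1) τ') - fn θ (F.s (i + 1) τ'')| + 1) := by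
  have h : 1 ≤ i ∧ i < K ∧ Cap n i τ := ⟨h1, h2, h3⟩
  have e : psi F i τ θ = (F.B2 i τ θ h.1 h.2.1 h.2.2).choose := by
    unfold psi
    rw [dif_pos h]
  rw [e]
  exact (F.B2 i τ θ h.1 h.2.1 h.2.2).choose_spec.2.2.1

theorem psi_strip (F : Amp C n K) {i : ℕ} {τ : Z2} (θ : ℝ) (h1 : 1 ≤ i) (h2 : i < K) (h3 : Cap n i τ)
    (σ : Nd) (G : Finset Z2) (k : ℕ) (hσ : σ.τ = τ) (hG : G ⊆ kids n τ)
    (hk : ∀ r : ℝ, (G.filter fun τ' => |psi F i τ θ 0 * τ' 0 + psi F i τ θ 1 * τ' 1 - r| ≤ 1).card ≤ k)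
    (U : Finset Nd) (r : ℝ) (hU : ∀ S ∈ U, S.sg n = σ ∧ |fn θ (fun j => (S.o j : ℝ)) - r| ≤ 1) :
    ∑ S ∈ U, F.A i S G ^ 2 ≤ C * 2 ^ n * k * ∑ τ' ∈ G, F.a (i + 1) (σ.ch F.s n i τ') ^ 2 := by
  have h : 1 ≤ i ∧ i < K ∧ Cap n i τ := ⟨h1, h2, h3⟩
  have e : psi F i τ θ = (F.B2 i τ θ h.1 h.2.1 h.2.2).choose := by
    unfold psi
    rw [dif_pos h]
  rw [e] at hk
  exact (F.B2 i τ θ h.1 h.2.1 h.2.2).choose_spec.2.2.2 σ G k hσ hG hk U r hU

/-- all columns have at most `C' 2 ^ n` elements -/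
theorem col_size (F : Amp C n K) (hC : 0 ≤ C) {i : ℕ} {τ : Z2} (θ : ℝ) (h1 : 1 ≤ i) (h2 : i < K) (h3 : Cap n i τ)
    {G : Finset Z2} (hG : G ⊆ kids n τ) (z : ℤ) :
    (G.filter fun t => colOf (psi F i τ θ) t = z).card ≤ (2 * ⌈3 * C⌉₊ + 1) ^ 2 * ((4 * ⌈C⌉₊ + 2) * 2 ^ n) := by
  classical
  set E := G.filter fun t => colOf (psi F i τ θ) t = z with hE
  set x0 : ℝ := 2 ^ ((i + 1) * n) * fn θ (F.s i τ) with hx0
  set y0 : ℝ := 2 * C * 2 ^ n with hy0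
  have hpar : ∀ t ∈ kids n τ, par n t = τ := by
    intro t ht
    funext k
    have h5 := (Fintype.mem_piFinset.1 ht) k
    rw [Finset.mem_Ico] at h5
    have hp : (0:ℤ) < 2 ^ n := by positivity
    show t k / 2 ^ n = τ k
    rw [Int.ediv_eq_iff_of_pos hp]
    constructor <;> nlinarith [h5.1, h5.2]
  have hs : ∀ t ∈ kids n τ, |2 ^ ((i + 1) * n) * fn θ (F.s (i + 1) t) - x0| ≤ y0 := by
    intro t ht
    have h4 : ∀ k, |F.s (i + 1) t k - F.s i τ k| ≤ C / 2 ^ (i * n) := by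
      intro k
      have := F.slp.nest i t k h2 (cap_kids h3 ht)
      rwa [hpar t ht] at this
    have e1 : 2 ^ ((i + 1) * n) * fn θ (F.s (i + 1) t) - x0 =
        2 ^ ((i + 1) * n) * (-Real.sin θ * (F.s (i + 1) t 0 - F.s i τ 0) + Real.cos θ * (F.s (i + 1) t 1 - F.s i τ 1)) := by
      rw [hx0]; unfold fn; ring
    rw [e1, abs_mul, abs_of_nonneg (show (0:ℝ) ≤ 2 ^ ((i + 1) * n) by positivity)]
    have h6 : |-Real.sin θ * (F.s (i + 1) t 0 - F.s i τ 0) + Real.cos θ * (F.s (i + 1) t 1 - F.s i τ 1)| ≤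
        C / 2 ^ (i * n) + C / 2 ^ (i * n) := by
      refine (abs_add_le _ _).trans (add_le_add ?_ ?_)
      · rw [abs_mul, abs_neg]
        calc _ ≤ 1 * |F.s (i + 1) t 0 - F.s i τ 0| := mul_le_mul_of_nonneg_right (Real.abs_sin_le_one θ) (abs_nonneg _)
          _ ≤ _ := by rw [one_mul]; exact h4 0
      · rw [abs_mul]
        calc _ ≤ 1 * |F.s (i + 1) t 1 - F.s i τ 1| := mul_le_mul_of_nonneg_right (Real.abs_cos_le_one θ) (abs_nonneg _)
          _ ≤ _ := by rw [one_mul]; exact h4 1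
    calc _ ≤ 2 ^ ((i + 1) * n) * (C / 2 ^ (i * n) + C / 2 ^ (i * n)) := mul_le_mul_of_nonneg_left h6 (by positivity)
      _ = y0 := by
        rw [hy0, show (i + 1) * n = i * n + n by ring, pow_add]
        field_simp
        ring
  have h7 : ∀ t ∈ E, ⌊2 ^ ((i + 1) * n) * fn θ (F.s (i + 1) t)⌋ ∈ Finset.Icc ⌊x0 - y0⌋ ⌊x0 + y0⌋ := by
    intro t ht
    have h8 := abs_le.1 (hs t (hG (mem_filter.1 ht).1))
    rw [mem_Icc]
    exact ⟨Int.floor_le_floor (by linarith [h8.1]), Int.floor_le_floor (by linarith [h8.2])⟩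
  have h9 := Finset.card_le_mul_card_image_of_maps_to (s := E) (t := Finset.Icc ⌊x0 - y0⌋ ⌊x0 + y0⌋)
    (f := fun t => ⌊2 ^ ((i + 1) * n) * fn θ (F.s (i + 1) t)⌋) h7 ((2 * ⌈3 * C⌉₊ + 1) ^ 2) (by
      intro w _
      refine near_card _ ⌈3 * C⌉₊ fun t ht t' ht' => ?_
      rw [mem_filter] at ht ht'
      have m0 := mem_filter.1 ht.1
      have m0' := mem_filter.1 ht'.1
      have m1 := psi_near F θ h1 h2 h3 t (hG m0.1) t' (hG m0'.1)
      refine m1.trans (le_trans ?_ (Nat.le_ceil _))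
      have m2 : |psi F i τ θ 0 * ((t 0 : ℝ) - t' 0) + psi F i τ θ 1 * ((t 1 : ℝ) - t' 1)| ≤ 1 := by
        have e : colOf (psi F i τ θ) t = colOf (psi F i τ θ) t' := m0.2.trans m0'.2.symm
        unfold colOf at e
        have a := Int.abs_sub_lt_one_of_floor_eq_floor e
        have e2 : psi F i τ θ 0 * ((t 0 : ℝ) - t' 0) + psi F i τ θ 1 * ((t 1 : ℝ) - t' 1) =
            psi F i τ θ 0 * t 0 + psi F i τ θ 1 * t 1 - (psi F i τ θ 0 * t' 0 + psi F i τ θ 1 * t' 1) := by ring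
        rw [e2]
        exact a.le
      have m3 : 2 ^ ((i + 1) * n) * |fn θ (F.s (i + 1) t) - fn θ (F.s (i + 1) t')| ≤ 1 := by
        have a := Int.abs_sub_lt_one_of_floor_eq_floor (ht.2.trans ht'.2.symm)
        rw [← mul_sub, abs_mul, abs_of_nonneg (show (0:ℝ) ≤ 2 ^ ((i + 1) * n) by positivity)] at a
        exact a.le
      calc _ ≤ C * (1 + 1 + 1) := mul_le_mul_of_nonneg_left (by linarith) hC
        _ = 3 * C := by ring)
  refine h9.trans (Nat.mul_le_mul_left _ ?_)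
  have hy : 0 ≤ y0 := by positivity
  have h10 : ((Finset.Icc ⌊x0 - y0⌋ ⌊x0 + y0⌋).card : ℝ) ≤ 2 * y0 + 2 := by
    rw [Int.card_Icc]
    have a1 := Int.floor_le (x0 + y0)
    have a2 := Int.lt_floor_add_one (x0 - y0)
    have a3 : ⌊x0 - y0⌋ ≤ ⌊x0 + y0⌋ := Int.floor_le_floor (by linarith)
    have a4 : (((⌊x0 + y0⌋ + 1 - ⌊x0 - y0⌋).toNat : ℤ) : ℝ) = ((⌊x0 + y0⌋ + 1 - ⌊x0 - y0⌋ : ℤ) : ℝ) := by
      rw [Int.toNat_of_nonneg (by omega)]
    have a5 : (((⌊x0 + y0⌋ + 1 - ⌊x0 - y0⌋).toNat : ℕ) : ℝ) = ((⌊x0 + y0⌋ + 1 - ⌊x0 - y0⌋ : ℤ) : ℝ) := by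
      rw [← a4]; norm_cast
    rw [a5]
    push_cast
    linarith
  have h11 : (2:ℝ) * y0 + 2 ≤ ((4 * ⌈C⌉₊ + 2) * 2 ^ n : ℕ) := by
    push_cast
    have b1 : C ≤ ⌈C⌉₊ := Nat.le_ceil C
    have b2 : (1:ℝ) ≤ 2 ^ n := one_le_pow₀ (by norm_num)
    rw [hy0]
    nlinarith
  exact_mod_cast h10.trans h11

/-- **column refinement** -/
theorem col_ref (F : Amp C n K) (hC : 0 ≤ C) (V : Val) (ρ : ℝ) (a : ℕ → ℝ) (J : ℕ → ℕ) (h : V.Ok F ρ a J)
    (hρ : 0 < ρ) (φ : ℕ → Nd → ℝ) (w : Nd → ℝ) (hw : ∀ x ∈ V.X, 0 ≤ w x) :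
    ∃ (V' : Val) (J' : ℕ → ℕ) (u : ℕ → ℕ), V'.Le V ∧ V'.Ok F (ρ / (los (2 * n + 1) n K : ℕ) ^ K) a J' ∧
      (∀ i, u i ≤ 2 * n) ∧
      (∀ i, 1 ≤ i → i < K → (V'.D F.s n i).Nonempty → 2 ^ u i ≤ (2 * ⌈3 * C⌉₊ + 1) ^ 2 * ((4 * ⌈C⌉₊ + 2) * 2 ^ n)) ∧
      (∀ i, 1 ≤ i → i < K → ∀ S ∈ V'.D F.s n i,
        (∀ (U : Finset Nd) (r : ℝ), U ⊆ V'.D F.s n i →
          (∀ S₁ ∈ U, S₁.sg n = S.sg n ∧ |fn (φ i (S.sg n)) (fun j => (S₁.o j : ℝ)) - r| ≤ 1) →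
          (U.card : ℝ) * (ρ / (los (2 * n + 1) n K : ℕ) ^ K * a i) ^ 2 ≤
            48 * C * 2 ^ (n + u i + J' i) * a (i + 1) ^ 2) ∧
        (∀ E : Finset Z2, E ⊆ V'.G i (S.sg n) →
          (∀ t ∈ E, ∀ t' ∈ E, 2 ^ ((i + 1) * n) *
            |fn (φ i (S.sg n)) (F.s (i + 1) t) - fn (φ i (S.sg n)) (F.s (i + 1) t')| ≤ 1) →
          E.card * 2 ^ u i ≤ (2 * ⌈3 * C⌉₊ + 1) ^ 2 * 2 ^ (J i + 1))) ∧
      ∑ x ∈ V.X, w x ≤ (los (2 * n + 1) n K : ℕ) ^ K * ∑ x ∈ V'.X, w x := by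
  classical
  obtain ⟨V', J', u, h1, h2, h3, h4⟩ := teref V ρ a J h hρ w hw (2 * n + 1) (by omega)
    (fun i σ τ' => clab n (psi F i σ.τ (φ i σ)) (V.G i σ) τ') K le_rfl
  refine ⟨V', J', fun i => (u i : ℕ), h1, h2, fun i => Nat.lt_succ_iff.1 (u i).2, ?_, ?_, h4⟩
  · intro i hi1 hiK hne
    obtain ⟨S, hS⟩ := hne
    have hcap : Cap n i S.τ := h2.cap i hiK.le S hS
    have hSV : S ∈ V.D F.s n i := h1.D i hS
    have hG : V.G i (S.sg n) ⊆ kids n S.τ := h.kid i hiK S hSV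
    have hcard := (h2.size i hiK S hS).1
    have hne' : (V'.G i (S.sg n)).Nonempty := by
      rw [← Finset.card_pos]
      exact lt_of_lt_of_le (by positivity) hcard
    obtain ⟨t, ht⟩ := hne'
    have hu := h3 i hiK (S.sg n) t ht
    have h5 := (clab_spec (τ := S.τ) hG (h1.2 i _ ht) hu).1
    exact h5.trans (col_size F hC (φ i (S.sg n)) hi1 hiK hcap hG _)
  intro i hi1 hiK S hS
  have hcap : Cap n i S.τ := h2.cap i hiK.le S hS
  have hSV : S ∈ V.D F.s n i := h1.D i hS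
  have hG : V.G i (S.sg n) ⊆ kids n S.τ := h.kid i hiK S hSV
  have hG' : V'.G i (S.sg n) ⊆ V.G i (S.sg n) := h1.2 i _
  have hu : ∀ τ' ∈ V'.G i (S.sg n), clab n (psi F i S.τ (φ i (S.sg n))) (V.G i (S.sg n)) τ' = u i :=
    fun τ' hτ => h3 i hiK (S.sg n) τ' hτ
  constructor
  · intro U r hU hr
    have k1 := psi_strip F (φ i (S.sg n)) hi1 hiK hcap (S.sg n) (V'.G i (S.sg n)) (3 * 2 ^ ((u i : ℕ) + 1)) rfl
      (hG'.trans hG) (col_small hG hG' hu) U r hr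
    have k2 := h2.sum_sq hiK hS
    have k3 : U.card • (ρ / (los (2 * n + 1) n K : ℕ) ^ K * a i) ^ 2 ≤ ∑ S₁ ∈ U, F.A i S₁ (V'.G i (S.sg n)) ^ 2 := by
      refine Finset.card_nsmul_le_sum _ _ _ fun S₁ hS₁ => ?_
      have m1 := h2.sum i hiK S₁ (hU hS₁)
      rw [(hr S₁ hS₁).1] at m1
      have m2 := (h2.amp i hiK.le S₁ (hU hS₁)).1
      have m3 := h2.apos i hiK.le
      have hl : (0 : ℝ) < (los (2 * n + 1) n K : ℕ) := los_cast_pos (by omega)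
      refine pow_le_pow_left₀ (by positivity) (le_trans ?_ m1) 2
      exact mul_le_mul_of_nonneg_left m2 (by positivity)
    rw [nsmul_eq_mul] at k3
    calc _ ≤ _ := k3
      _ ≤ _ := k1
      _ ≤ C * 2 ^ n * (3 * 2 ^ ((u i : ℕ) + 1) : ℕ) * (8 * 2 ^ J' i * a (i + 1) ^ 2) :=
          mul_le_mul_of_nonneg_left k2 (by positivity)
      _ = 48 * C * 2 ^ (n + (u i : ℕ) + J' i) * a (i + 1) ^ 2 := by
          push_cast
          rw [pow_add, pow_add, pow_succ]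
          ring
  · intro E hE hd
    have k1 := dig_few hG hG' hu ⌈3 * C⌉₊ E hE (by
      intro t ht t' ht' hle
      have m1 := psi_near F (φ i (S.sg n)) hi1 hiK hcap t ((hG'.trans hG) (hE ht)) t' ((hG'.trans hG) (hE ht'))
      refine m1.trans (le_trans ?_ (Nat.le_ceil _))
      have m2 := hd t ht t' ht'
      calc _ ≤ C * (1 + 1 + 1) := mul_le_mul_of_nonneg_left (by linarith) hC
        _ = 3 * C := by ring)
    refine k1.trans (Nat.mul_le_mul_left _ ?_)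
    exact (h.size i hiK S hSV).2.le

end main

end Vale.Agent.P122.H425
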