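import Vale.Agent.P122.H425.Law
import Vale.Agent.P122.H655.OL
import Vale.Agent.P122.H11.RG1

/-!
# P122 / H425 : the counts of the uniform law, `H11.PLaw` literally
-/

set_option autoImplicit false

namespace Vale.Agent.P122.H425

/-- **RGlaw** -/
theorem pLaw : H11.PLaw := by
  intro K Z W
  exact ⟨fun c hc => law_kid W hc, law_flag W (H655.X_OL W), fun c hc => law_L W hc, fun c hc => law_B1 W hc⟩

end Vale.Agent.P122.H425
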