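import Vale.Agent.P122.E.Defs

/-!
# P122 / H425 : regular systems of flags pass to dense laws (helper425)

`Spt d` : the support of the dense law is over the support.  `Cnt`, `Unf`, `Rare`, `ExU`, `Fn`, `RegA` pass to `F.res d`.
-/

set_option autoImplicit false

namespace Vale.Agent.P122.H425

open Filter Topology Finset Vale.Agent.P127 Vale.Agent.P127.Stk Vale.Agent.P127.U Vale.Agent.P127.U.Sys
  Vale.Agent.P122.C2 Vale.Agent.P122.E

/-- expectations of a function of a random variable -/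
theorem ex_push {Ω Ω' : Type} [Fintype Ω] [Fintype Ω'] (P' : Law Ω') (π : Ω' → Ω) (g : Ω → ℝ) :
    P'.ex (fun ω => g (π ω)) = ∑ v : Ω, P'.pr π v * g v := by
  classical
  unfold Law.ex Law.pr
  rw [← Finset.sum_fiberwise Finset.univ π fun ω => P'.w ω * g (π ω)]
  refine Finset.sum_congr rfl fun v _ => ?_
  rw [Finset.sum_mul]
  refine Finset.sum_congr ?_ fun ω hω => ?_
  · ext; simp
  · rw [(Finset.mem_filter.1 hω).2]

/-- dominated laws, nonnegative functions -/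
theorem ex_dom {Ω Ω' : Type} [Fintype Ω] [Fintype Ω'] (P : Law Ω) (P' : Law Ω') (π : Ω' → Ω) {B : ℝ}
    (h : ∀ v, P'.pr π v ≤ B * P.w v) (g : Ω → ℝ) (hg : ∀ v, 0 ≤ g v) :
    P'.ex (fun ω => g (π ω)) ≤ B * P.ex g := by
  rw [ex_push]
  unfold Law.ex
  rw [Finset.mul_sum]
  refine Finset.sum_le_sum fun v _ => ?_
  calc P'.pr π v * g v ≤ B * P.w v * g v := mul_le_mul_of_nonneg_right (h v) (hg v)
    _ = B * (P.w v * g v) := by ring

variable {S' S : Sys} {α β : Type*}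

/-- the support of the dense law is over the support -/
def Spt (d : Dns S' S) : Prop := ∀ i ω, 0 < (S'.P i).w ω → 0 < (S.P i).w (d.π i ω)

theorem res_cnt {d : Dns S' S} (hs : Spt d) {X : S.RV α} {Z : S.RV β} {r : ℝ} (h : Cnt S X Z r) :
    Cnt S' (d.pull X) (d.pull Z) r := by
  intro ε hε
  filter_upwards [h ε hε] with i hi ω hω
  obtain ⟨U, hU, hm⟩ := hi (d.π i ω) (hs i ω hω)
  refine ⟨U, by rw [d.L_eq]; exact hU, fun ω' hω' e => hm _ (hs i ω' hω') e⟩

theorem res_unf (d : Dns S' S) {X : S.RV α} {r : ℝ} (h : Unf S X r) : Unf S' (d.pull X) r := by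
  intro ε hε
  filter_upwards [h (ε / 2) (half_pos hε), d.dom (ε / 2) (half_pos hε)] with i h1 h2 ω
  have h3 : (S'.P i).pr (d.pull X i) (d.pull X i ω) ≤ 2 ^ (ε / 2 * S.L i) * (S.P i).pr (X i) (X i (d.π i ω)) := by
    have e1 : (S'.P i).pr (d.pull X i) (d.pull X i ω) = (S'.P i).ex fun ω' => Law.ind (X i (d.π i ω') = X i (d.π i ω)) :=
      Law.pr_eq_ex _ _ _
    have e2 : (S.P i).pr (X i) (X i (d.π i ω)) = (S.P i).ex fun v => Law.ind (X i v = X i (d.π i ω)) := Law.pr_eq_ex _ _ _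
    rw [e1, e2]
    refine ex_dom (S.P i) (S'.P i) (d.π i) h2 (fun v => Law.ind (X i v = X i (d.π i ω))) fun v => ?_
    by_cases hv : X i v = X i (d.π i ω)
    · rw [Law.ind_of hv]; norm_num
    · rw [Law.ind_not hv]
  refine h3.trans ?_
  rw [d.L_eq]
  calc (2:ℝ) ^ (ε / 2 * S.L i) * (S.P i).pr (X i) (X i (d.π i ω))
      ≤ 2 ^ (ε / 2 * S.L i) * 2 ^ ((-r + ε / 2) * S.L i) := mul_le_mul_of_nonneg_left (h1 _) (by positivity)
    _ = 2 ^ ((-r + ε) * S.L i) := by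
        rw [← Real.rpow_add (by norm_num)]
        congr 1
        ring

theorem res_rare (d : Dns S' S) {E : ∀ i, S.Ω i → Prop} (h : Rare S E) : Rare S' fun i ω => E i (d.π i ω) := by
  classical
  obtain ⟨η, hη, h⟩ := h
  refine ⟨η / 2, half_pos hη, ?_⟩
  filter_upwards [h, d.dom (η / 2) (half_pos hη)] with i h1 h2
  have h3 : prb S' (fun i ω => E i (d.π i ω)) i ≤ 2 ^ (η / 2 * S.L i) * prb S E i := by
    unfold prb
    refine ex_dom (S.P i) (S'.P i) (d.π i) h2 (fun v => if E i v then 1 else 0) fun v => ?_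
    split_ifs <;> norm_num
  refine h3.trans ?_
  rw [d.L_eq]
  calc (2:ℝ) ^ (η / 2 * S.L i) * prb S E i ≤ 2 ^ (η / 2 * S.L i) * 2 ^ (-(η * S.L i)) :=
        mul_le_mul_of_nonneg_left h1 (by positivity)
    _ = 2 ^ (-(η / 2 * S.L i)) := by
        rw [← Real.rpow_add (by norm_num)]
        congr 1
        ring

theorem res_fn {d : Dns S' S} (hs : Spt d) {X : S.RV α} {Y : S.RV β} (h : Sys.Fn X Y) :
    Sys.Fn (d.pull X) (d.pull Y) := by
  unfold Sys.Fn at h ⊢
  filter_upwards [h] with i hi ω ω' p p' e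
  exact hi _ _ (hs i ω p) (hs i ω' p') e

theorem nu_dns (d : Dns S' S) (n : ℕ → ℕ) : S'.nu n = S.nu n := by
  unfold Sys.nu
  rw [d.L_eq]

theorem res_exU {K : ℕ} {F : Flg K} {d : Dns S' F.S} (hs : Spt d) {c : ℕ} {e : ℝ} (h : ExU F c e) :
    ExU (F.res d hs) c e := by
  intro ε hε
  filter_upwards [h ε hε] with i hi θ u1 u2 p v T U a1 a2 a3 hU
  have e1 : (F.res d hs).S.L i = F.S.L i := by
    show S'.L i = F.S.L i
    rw [d.L_eq]
  rw [e1]
  refine hi θ u1 u2 p v T U a1 a2 a3 fun S hS => ?_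
  obtain ⟨⟨ω, hω, hN⟩, h2, h3⟩ := hU S hS
  exact ⟨⟨d.π i ω, hs i ω hω, hN⟩, h2, h3⟩

/-- **RegA passes to dense laws** -/
theorem res_regA {K : ℕ} {F : Flg K} {J θ H e : ℕ → ℝ} {W : ℕ → F.S.BX} {kk jj : ℕ → ℕ → ℕ}
    (h : RegA F J θ H e W kk jj) (d : Dns S' F.S) (hs : Spt d) :
    RegA (F.res d hs) J θ H e (fun c => d.pullB (W c)) kk jj where
  J0 := h.J0
  e0 := h.e0
  kid := fun c hc => res_cnt hs (h.kid c hc)
  x1 := res_cnt hs h.x1
  flag := res_unf d h.flag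
  Nu := fun c hc => res_unf d (h.Nu c hc)
  N1 := fun c hc => res_cnt hs (h.N1 c hc)
  L := h.L
  B1 := fun c hc => res_cnt hs (h.B1 c hc)
  exU := fun c hc => res_exU hs (h.exU c hc)
  Wok := fun c hc => by
    filter_upwards [h.Wok c hc] with i hi ω hω
    exact hi _ (hs i ω hω)
  Wfn := fun c hc => res_fn hs (h.Wfn c hc)
  W1 := fun c hc => by
    have h1 := res_cnt hs (h.W1 c hc)
    have e1 : (F.res d hs).S.nu (kk c) = F.S.nu (kk c) := nu_dns d _
    have e2 : (F.res d hs).S.nu (jj c) = F.S.nu (jj c) := nu_dns d _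
    rw [e1, e2]
    exact h1

end Vale.Agent.P122.H425
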