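import Vale.Agent.P122.H425.PLaw
import Vale.Agent.P122.E.RGFin

/-!
# P122 / H425 : [RG] closed, `S.StRG κ`
-/

set_option autoImplicit false

namespace Vale.Agent.P122.H425

/-- **[RG]** -/
theorem stRG (κ : ℝ) (hκ : 0 < κ) (hκ1 : κ ≤ 1) : S.StRG κ := E.strg_of_law pLaw κ hκ hκ1

end Vale.Agent.P122.H425
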